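import Vale.Agent.P144Q.Basic
import Vale.Agent.P144G.Uq2
import Mathlib.Analysis.Normed.Module.Connected
import Mathlib.Analysis.Normed.Module.Ball.Homeomorph

/-!
The boundary condition given by a conformal map: uniqueness, and the abstract data of a domain.
-/

namespace Vale.Agent.P144Q.U

open Filter Topology Metric Set Vale.Agent.P144
open Vale.Agent.P144G (Conf BdD)

variable {D : Set ℂ}

theorem img (c : Cm D) : c.ψ '' ball 0 1 = D :=
  Subset.antisymm c.ψm.image_subset fun z hz => ⟨c.φ z, c.φm hz, c.li z hz⟩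

theorem inj (c : Cm D) : InjOn c.ψ (ball 0 1) := fun w hw w' hw' h => by
  rw [← c.ri w hw, h, c.ri w' hw']

theorem der_mul (c : Cm D) {w : ℂ} (hw : w ∈ ball (0 : ℂ) 1) :
    deriv c.φ (c.ψ w) * deriv c.ψ w = 1 := by
  have h1 : HasDerivAt c.ψ (deriv c.ψ w) w :=
    (c.ψd.differentiableAt (isOpen_ball.mem_nhds hw)).hasDerivAt
  have h2 : HasDerivAt c.φ (deriv c.φ (c.ψ w)) (c.ψ w) :=
    (c.φd.differentiableAt (c.op.mem_nhds (c.ψm hw))).hasDerivAt
  have h3 : HasDerivAt (c.φ ∘ c.ψ) 1 w := by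
    refine (hasDerivAt_id w).congr_of_eventuallyEq ?_
    filter_upwards [isOpen_ball.mem_nhds hw] with u hu
    exact c.ri u hu
  exact (h2.comp w h1).unique h3

theorem conf (c : Cm D) : Conf c.ψ D where
  diff := c.ψd
  inj := inj c
  img := img c
  ne := fun w hw h => by
    have := der_mul c hw
    rw [h, mul_zero] at this
    exact zero_ne_one this

theorem bX_eq (c : Cm D) (F : ℂ → ℂ) (w : ℂ) : c.bX F w = P144G.XX c.ψ F w := by
  unfold Cm.bX P144G.XX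
  ring

theorem ev_rim {p : ℂ → Prop} :
    (∀ᶠ w in rim, p w) ↔ ∃ r < (1 : ℝ), ∀ w : ℂ, r < ‖w‖ → ‖w‖ < 1 → p w := by
  unfold rim
  rw [eventually_comap]
  constructor
  · intro h
    obtain ⟨r, hr, h⟩ := mem_nhdsLT_iff_exists_Ioo_subset.1 h
    exact ⟨r, hr, fun w h1 h2 => h ⟨h1, h2⟩ w rfl⟩
  · rintro ⟨r, hr, h⟩
    filter_upwards [Ioo_mem_nhdsLT hr] with t ht w hw
    exact h w (hw ▸ ht.1) (hw ▸ ht.2)

theorem le_rim {ξ : ℂ} (hξ : ‖ξ‖ = 1) : 𝓝[ball (0 : ℂ) 1] ξ ≤ rim := by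
  intro s hs
  obtain ⟨r, hr, h⟩ := ev_rim.1 (show ∀ᶠ w in rim, w ∈ s from hs)
  filter_upwards [P144G.ev_ring hr hξ] with w hw
  exact h w hw.1 hw.2

theorem bdD (c : Cm D) {F : ℂ → ℂ} (h : c.BdC F) : BdD c.ψ F := fun _ hξ =>
  (Tendsto.mono_left h (le_rim hξ)).congr fun w => by rw [bX_eq]

theorem bdC (c : Cm D) {F : ℂ → ℂ} (h : BdD c.ψ F) : c.BdC F := by
  refine tendsto_order.2 ⟨fun b hb => Eventually.of_forall fun w =>
    hb.trans_le (sub_nonneg.2 (Complex.re_le_norm _)), fun b hb => ?_⟩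
  obtain ⟨r, hr, h1⟩ := P144G.unif_of h (half_pos hb)
  refine ev_rim.2 ⟨r, hr, fun w a1 a2 => ?_⟩
  rw [bX_eq]
  exact (h1 w a1 a2).trans_lt (half_lt_self hb)

/-- **Uniqueness.** -/
theorem uni : SUni := fun _ c _ _ _ _ _ _ _ _ _ _ hζ hω hinj hT hTD hTM hq he hc1 hc2 b1 b2 r1 r2
    hs => P144G.cont_zero (conf c) hζ hω hinj hT hTD hTM hq he hc1 hc2 (bdD c b1) (bdD c b2) r1 r2 hs

theorem smul (c : Cm D) (F F' : ℂ → ℂ) (t : ℝ) (T : Set ℂ) (ht : 0 ≤ t) (hT : T.Finite)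
    (hTD : T ⊆ D) (he : ∀ z ∈ D, z ∉ T → F' z = t * F z) (h : c.BdC F) : c.BdC F' := by
  obtain ⟨r, hr, hK⟩ := (conf c).away hT.isCompact hTD
  have h1 := Tendsto.const_mul t h
  rw [mul_zero] at h1
  refine h1.congr' (ev_rim.2 ⟨r, hr, fun w a1 a2 => ?_⟩)
  have e : c.bX F' w = t * c.bX F w := by
    unfold Cm.bX
    rw [he _ (c.ψm (mem_ball_zero_iff.2 a2)) (hK w a1 a2)]
    ring
  show t * (‖c.bX F w‖ - (c.bX F w).re) = ‖c.bX F' w‖ - (c.bX F' w).re
  rw [e, norm_mul, Complex.norm_real, Real.norm_of_nonneg ht, Complex.re_ofReal_mul]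
  ring

theorem zero (c : Cm D) : c.BdC fun _ => 0 := by
  have e : (fun w => ‖c.bX (fun _ => 0) w‖ - (c.bX (fun _ => 0) w).re) = fun _ => 0 := by
    funext w
    simp [Cm.bX]
  unfold Cm.BdC
  rw [e]
  exact tendsto_const_nhds

/-- The disc minus a countable set is connected. -/
theorem conn_ball {T : Set ℂ} (hT : T.Countable) : IsPreconnected (ball (0 : ℂ) 1 \ T) := by
  set u := OpenPartialHomeomorph.univUnitBall (E := ℂ) with hu
  have hi : Function.Injective u := fun x y h => u.injOn (mem_univ x) (mem_univ y) h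
  have h2 : IsPreconnected (u ⁻¹' T)ᶜ :=
    ((hT.preimage hi).isPathConnected_compl_of_one_lt_rank (by
      rw [Complex.rank_real_complex]; exact_mod_cast one_lt_two)).isConnected.isPreconnected
  have h3 : u '' (u ⁻¹' T)ᶜ = ball 0 1 \ T := by
    ext w
    constructor
    · rintro ⟨z, hz, rfl⟩
      exact ⟨u.map_source (mem_univ z), hz⟩
    · rintro ⟨h, h'⟩
      refine ⟨u.symm w, ?_, u.right_inv h⟩
      intro e
      rw [mem_preimage, u.right_inv h] at e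
      exact h' e
  rw [← h3]
  exact h2.image _ (u.continuousOn.mono (subset_univ _))

theorem conn (c : Cm D) (T : Set ℂ) (hT : T.Finite) : IsPreconnected (D \ T) := by
  have h4 : c.ψ '' (ball 0 1 \ c.φ '' (T ∩ D)) = D \ T := by
    ext z
    constructor
    · rintro ⟨w, ⟨h1, h2⟩, rfl⟩
      exact ⟨c.ψm h1, fun h => h2 ⟨_, ⟨h, c.ψm h1⟩, c.ri w h1⟩⟩
    · rintro ⟨h1, h2⟩
      refine ⟨c.φ z, ⟨c.φm h1, ?_⟩, c.li z h1⟩
      rintro ⟨y, ⟨h5, h6⟩, h7⟩
      have : y = z := by rw [← c.li y h6, h7, c.li z h1]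
      exact h2 (this ▸ h5)
  rw [← h4]
  exact (conn_ball ((hT.inter_of_left D).image _).countable).image _
    (c.ψd.continuousOn.mono sdiff_subset)

/-- **The abstract data.** -/
theorem dom (hV : SVan) (hB : SBdc) (hM : SMap) (hF : SFat) : SDom := by
  intro D hD hs hsm
  obtain ⟨c, hc⟩ := hM D hD hs
  refine ⟨⟨D, c.BdC, c.op, hsm, conn c, smul c, zero c, uni D c,
    fun h => (hV D c.op hsm (hF D hD) h).1, fun h F h1 h2 => ?_⟩, rfl⟩
  have h3 := hV D c.op hsm (hF D hD) h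
  exact hB D c hD.2.1 hc _ _ F h.cpt h.sub h1 h2 h3.1 h3.2

end Vale.Agent.P144Q.U
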