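import Vale.Agent.P144Q.U.Cls
import Vale.Agent.P144Q.L.Fat
import Vale.Agent.P144E.Ge5.B

/-!
Domains of the class `Lip3`: invariance, and domains with corners.
-/

namespace Vale.Agent.P144Q.U

open Filter Topology Metric Set Vale.Agent.P144
open Vale.Agent.P144Z (Cone Tame IsC1 IsLip IsPC1 IsPolygon)
open Vale.Agent.P144Z.Ge5 (gr nu norm_nu eg)
open Vale.Agent.P144Q.L (ip Chart Lip3 ip_le ip_self ip_add ip_sub ip_smul lip3_of_lip2)

variable {D : Set ℂ}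

/-- At each boundary point the complement of `D` contains a small circular sector whose half
opening has a cosine less than `9 / 10` (every opening of at least 52 degrees is allowed). -/
def Wide (D : Set ℂ) : Prop :=
  ∀ z ∈ frontier D, ∃ c < (9 / 10 : ℝ), ∃ r > (0 : ℝ), ∃ ν : ℂ, ‖ν‖ = 1 ∧
    ∀ v : ℂ, ‖v‖ < r → c * ‖v‖ ≤ v.re * ν.re + v.im * ν.im → z + v ∉ D

theorem lip3_sim {g o : ℂ → ℂ} {t : ℝ} (ht : 0 < t) (hc : Continuous g)
    (ha : ∀ x y, g (x + y) = g x + g y) (hn : ∀ v, ‖g v‖ = t * ‖v‖) (ho : ∀ v, ‖o v‖ = ‖v‖)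
    (hi : ∀ v ν, (g v).re * ν.re + (g v).im * ν.im = t * (v.re * (o ν).re + v.im * (o ν).im))
    (hj : ∀ μ ν, ip (o μ) (o ν) = ip μ ν) (h : Lip3 D) : Lip3 (g ⁻¹' D) := by
  obtain ⟨h1, h2, γ, r, g0, r0, h⟩ := h
  have cone : ∀ S ν κ, Cone S ν κ → Cone (g ⁻¹' S) (o ν) κ := by
    intro S ν κ hS z hz v hv
    show g (z + v) ∈ S
    rw [ha]
    refine hS _ hz _ ?_
    rw [hi, hn]
    nlinarith
  refine ⟨h1.preimage hc, ?_, γ, r / t, g0, div_pos r0 ht, fun z => ?_⟩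
  · obtain ⟨T, hT⟩ := h2.exists_norm_le
    refine isBounded_iff_forall_norm_le.2 ⟨T / t, fun w hw => ?_⟩
    have := hT _ hw
    rw [hn] at this
    rw [le_div_iff₀ ht]
    linarith
  · obtain ⟨κ, S₁, S₂, ν₁, ν₂, μ, k0, k1, a1, a2, a3, a4, a5, a6, a7, a8⟩ := h (g z)
    refine ⟨κ, g ⁻¹' S₁, g ⁻¹' S₂, o ν₁, o ν₂, o μ, k0, k1, by rw [ho, a1], by rw [ho, a2],
      by rw [ho, a3], by rwa [hj], by rwa [hj], cone _ _ _ a6, cone _ _ _ a7, ?_⟩
    have e : ball z (r / t) = g ⁻¹' ball (g z) r := by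
      ext w
      have e1 : g w - g z = g (w - z) := by
        have := ha (w - z) z
        rw [sub_add_cancel] at this
        rw [this]; ring
      rw [mem_preimage, mem_ball, mem_ball, dist_eq_norm, dist_eq_norm, e1, hn, lt_div_iff₀ ht,
        mul_comm]
    rw [e, ← preimage_inter, a8, preimage_inter, preimage_inter]

theorem lip3_mul {R : ℝ} (hR : 0 < R) (h : Lip3 D) : Lip3 ((fun z => (R : ℂ) * z) ⁻¹' D) := by
  refine lip3_sim (o := fun z => z) hR (by fun_prop) (fun x y => mul_add _ x y) (fun v => ?_)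
    (fun _ => rfl) (fun v ν => ?_) (fun _ _ => rfl) h
  · rw [norm_mul, Complex.norm_real, Real.norm_of_nonneg hR.le]
  · rw [Complex.re_ofReal_mul, Complex.im_ofReal_mul]; ring

theorem lip3_div {R : ℝ} (hR : 0 < R) (h : Lip3 D) : Lip3 ((fun z => z / (R : ℂ)) '' D) := by
  rw [div_image hR]
  exact lip3_mul hR h

theorem lip3_rc (h : Lip3 D) : Lip3 (H436.rc '' D) := by
  rw [rc_image]
  refine lip3_sim (o := H436.rc) one_pos rc_cont (fun x y => ?_)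
    (fun v => by rw [rc_norm, one_mul]) rc_norm (fun v ν => ?_) (fun μ ν => ?_) h
  · apply Complex.ext <;> simp [H436.rc, add_comm]
  · simp [H436.rc]
  · simp [H436.rc, ip]

theorem chart_mono {γ γ' r r' : ℝ} {z z' : ℂ} (h : Chart D γ r z) (hγ : γ' ≤ γ)
    (hb : ball z' r' ⊆ ball z r) : Chart D γ' r' z' := by
  obtain ⟨κ, S₁, S₂, ν₁, ν₂, μ, k0, k1, a1, a2, a3, a4, a5, a6, a7, a8⟩ := h
  refine ⟨κ, S₁, S₂, ν₁, ν₂, μ, k0, k1, a1, a2, a3, by linarith, by linarith, a6, a7, ?_⟩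
  rw [← inter_eq_self_of_subset_right hb, ← inter_assoc, a8, inter_assoc]

theorem chart_one {S : Set ℂ} {ν z : ℂ} {κ : ℝ} (k0 : 0 ≤ κ) (k1 : κ ≤ 9 / 10) (hν : ‖ν‖ = 1)
    (hS : Cone S ν κ) (h : ∀ᶠ w in 𝓝 z, w ∈ D ↔ w ∈ S) : ∃ r > (0 : ℝ), Chart D (1 / 10) r z := by
  obtain ⟨r, hr, e⟩ := P144Z.Ge5.ball_of_ev h
  have e1 := ip_self hν
  exact ⟨r, hr, κ, S, S, ν, ν, ν, k0, k1, hν, hν, hν, by linarith, by linarith, hS, hS,
    by rw [inter_self, e]⟩

/-- Charts at the boundary points suffice. -/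
theorem lip3_of_loc (ho : IsOpen D) (hb : Bornology.IsBounded D)
    (h : ∀ z ∈ frontier D, ∃ γ > (0 : ℝ), ∃ r > (0 : ℝ), Chart D γ r z) : Lip3 D := by
  have all : ∀ z : ℂ, ∃ γ > (0 : ℝ), ∃ r > (0 : ℝ), Chart D γ r z := by
    intro z
    by_cases hz : z ∈ frontier D
    · exact h z hz
    by_cases h1 : z ∈ D
    · exact ⟨_, by norm_num, chart_one (S := univ) le_rfl (by norm_num) norm_one
        (fun _ _ _ _ => trivial) (mem_of_superset (ho.mem_nhds h1) fun w hw =>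
          ⟨fun _ => trivial, fun _ => hw⟩)⟩
    · exact ⟨_, by norm_num, chart_one (S := ∅) le_rfl (by norm_num) norm_one
        (fun _ h => h.elim) (mem_of_superset (isClosed_closure.isOpen_compl.mem_nhds
          fun h3 => hz ⟨h3, fun h4 => h1 (interior_subset h4)⟩) fun w hw =>
            ⟨fun o => hw (subset_closure o), fun o => o.elim⟩)⟩
  obtain ⟨T, hT⟩ := hb.exists_norm_le
  obtain ⟨γ, g0, r, r0, hK⟩ := (isCompact_closedBall (0 : ℂ) (T + 1)).induction_on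
    (p := fun K => ∃ γ > (0 : ℝ), ∃ r > (0 : ℝ), ∀ z ∈ K, Chart D γ r z)
    ⟨1, one_pos, 1, one_pos, fun _ h => h.elim⟩
    (fun _ _ hs ⟨γ, g0, r, r0, ha⟩ => ⟨γ, g0, r, r0, fun z hz => ha z (hs hz)⟩)
    (fun _ _ ⟨γ, g0, r, r0, ha⟩ ⟨γ', g0', r', r0', ha'⟩ =>
      ⟨min γ γ', lt_min g0 g0', min r r', lt_min r0 r0', fun z hz => hz.elim
        (fun hz => chart_mono (ha z hz) (min_le_left _ _) (ball_subset_ball (min_le_left _ _)))
        fun hz => chart_mono (ha' z hz) (min_le_right _ _) (ball_subset_ball (min_le_right _ _))⟩)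
    fun p _ => by
      obtain ⟨γ, g0, r, r0, ha⟩ := all p
      exact ⟨_, mem_nhdsWithin_of_mem_nhds (ball_mem_nhds p (half_pos r0)), γ, g0, r / 2,
        half_pos r0, fun z hz => chart_mono ha le_rfl
          (ball_subset_ball' (by linarith [mem_ball.1 hz]))⟩
  refine ⟨ho, hb, min γ 1, min r 1, lt_min g0 one_pos, lt_min r0 one_pos, fun z => ?_⟩
  by_cases hz : z ∈ closedBall (0 : ℂ) (T + 1)
  · exact chart_mono (hK z hz) (min_le_left _ _) (ball_subset_ball (min_le_left _ _))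
  · have e := ip_self (ν := 1) norm_one
    refine ⟨0, ∅, ∅, 1, 1, 1, le_rfl, by norm_num, norm_one, norm_one, norm_one,
      by linarith [min_le_right γ 1], by linarith [min_le_right γ 1],
      fun _ h => h.elim, fun _ h => h.elim, ?_⟩
    rw [empty_inter, empty_inter, eq_empty_iff_forall_notMem]
    rintro w ⟨a1, a2⟩
    refine hz (mem_closedBall_zero_iff.2 ?_)
    have a3 := mem_ball.1 (ball_subset_ball (min_le_right _ _) a2)
    rw [dist_comm, dist_eq_norm] at a3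
    linarith [hT w a1, norm_le_norm_add_norm_sub' z w]

/-- The bisector of two unit vectors. -/
theorem bisect {ν₁ ν₂ : ℂ} (a1 : ‖ν₁‖ = 1) (a2 : ‖ν₂‖ = 1) (h : ν₁ + ν₂ ≠ 0) :
    ∃ μ : ℂ, ‖μ‖ = 1 ∧ ip μ ν₁ = ‖ν₁ + ν₂‖ / 2 ∧ ip μ ν₂ = ‖ν₁ + ν₂‖ / 2 := by
  set s := ‖ν₁ + ν₂‖ with hs
  have s0 : 0 < s := norm_pos_iff.2 h
  have b1 := sq_of_norm a1
  have b2 := sq_of_norm a2
  have b3 : s ^ 2 = (ν₁.re + ν₂.re) * (ν₁.re + ν₂.re) + (ν₁.im + ν₂.im) * (ν₁.im + ν₂.im) := by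
    rw [hs, Complex.sq_norm, Complex.normSq_apply, Complex.add_re, Complex.add_im]
  have key : ∀ x : ℝ, 2 * x = s ^ 2 → s⁻¹ * x = s / 2 := by
    intro x hx
    field_simp
    linarith
  refine ⟨(s⁻¹ : ℝ) * (ν₁ + ν₂), ?_, ?_, ?_⟩
  · rw [norm_mul, Complex.norm_real, Real.norm_of_nonneg (inv_pos.2 s0).le, ← hs,
      inv_mul_cancel₀ s0.ne']
  · rw [ip_smul]
    refine key _ ?_
    unfold ip
    rw [Complex.add_re, Complex.add_im]
    nlinarith
  · rw [ip_smul]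
    refine key _ ?_
    unfold ip
    rw [Complex.add_re, Complex.add_im]
    nlinarith

/-- The gradient points away from an outer sector. -/
theorem grad_le {F : ℂ → ℝ} (hF : ContDiff ℝ 1 F) {z : ℂ} (h0 : F z = 0) (hg : gr F z ≠ 0)
    (hD : ∀ᶠ w in 𝓝 z, 0 < F w → w ∈ D) {c r : ℝ} (hr : 0 < r) {ν : ℂ}
    (h : ∀ v : ℂ, ‖v‖ < r → c * ‖v‖ ≤ v.re * ν.re + v.im * ν.im → z + v ∉ D) {u : ℂ}
    (hu : c * ‖u‖ ≤ ip u ν) : ip u (nu F z) ≤ 0 := by
  by_contra hcon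
  have g0 := norm_pos_iff.2 hg
  have h1 : 0 < fderiv ℝ F z u := by
    have e : ip u (nu F z) = ‖gr F z‖⁻¹ * fderiv ℝ F z u := by
      rw [eg]
      simp only [ip, nu, Complex.smul_re, Complex.smul_im, smul_eq_mul]
      ring
    rw [e, not_le] at hcon
    exact (mul_pos_iff_of_pos_left (inv_pos.2 g0)).1 hcon
  have h2 : HasDerivAt (fun t : ℝ => z + t • u) u 0 := by
    simpa using ((hasDerivAt_id (0 : ℝ)).smul_const u).const_add z
  have h3 : HasFDerivAt F (fderiv ℝ F z) (z + (0 : ℝ) • u) := by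
    rw [zero_smul, add_zero]
    exact (hF.differentiable one_ne_zero z).hasFDerivAt
  have h4 := (hasDerivAt_iff_tendsto_slope_zero.1 (h3.comp_hasDerivAt (0 : ℝ) h2)).mono_left
    (nhdsGT_le_nhdsNE 0)
  have h5 : Tendsto (fun t : ℝ => z + t • u) (𝓝[>] 0) (𝓝 z) := by
    have := h2.continuousAt.tendsto
    rw [zero_smul, add_zero] at this
    exact this.mono_left nhdsWithin_le_nhds
  have h6 : Tendsto (fun t : ℝ => t * ‖u‖) (𝓝[>] 0) (𝓝 0) := by
    have : Tendsto (fun t : ℝ => t * ‖u‖) (𝓝 0) (𝓝 (0 * ‖u‖)) := tendsto_id.mul_const _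
    rw [zero_mul] at this
    exact this.mono_left nhdsWithin_le_nhds
  obtain ⟨t, ⟨⟨b1, b2⟩, b3⟩, b4⟩ := ((((h4.eventually (lt_mem_nhds h1)).and
    (h5.eventually hD)).and (h6.eventually (gt_mem_nhds hr))).and self_mem_nhdsWithin).exists
  have b5 : 0 < t := b4
  simp only [Function.comp_apply, zero_add, zero_smul, add_zero, h0, sub_zero, smul_eq_mul] at b1
  have b6 : ‖t • u‖ = t * ‖u‖ := by rw [norm_smul, Real.norm_of_nonneg b5.le]
  refine h (t • u) (by rwa [b6]) ?_ (b2 ((mul_pos_iff_of_pos_left (inv_pos.2 b5)).1 b1))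
  rw [b6, Complex.smul_re, Complex.smul_im, smul_eq_mul, smul_eq_mul]
  unfold ip at hu
  nlinarith

theorem cone_turn {S : Set ℂ} {ν ν₁ : ℂ} {c : ℝ} (c0 : 0 ≤ c) (c1 : c < 9 / 10) (hν : ‖ν‖ = 1)
    (h1 : ‖ν₁‖ = 1) (h : ∀ u : ℂ, c * ‖u‖ ≤ ip u ν → ip u ν₁ ≤ 0)
    (hS : Cone S ν₁ ((9 / 10 - c) / 2)) : Cone S (-ν) (9 / 10) := by
  intro z hz v hv
  refine hS z hz v ?_
  set δ := (9 / 10 - c) / 2 with hδ
  have d0 : 0 < δ := by linarith
  have n0 := norm_nonneg v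
  have e1 : ‖((δ * ‖v‖ : ℝ) : ℂ) * ν₁‖ = δ * ‖v‖ := by
    rw [norm_mul, h1, mul_one, Complex.norm_real, Real.norm_of_nonneg (by positivity)]
  have e2 := norm_sub_le (((δ * ‖v‖ : ℝ) : ℂ) * ν₁) v
  have e3 := (abs_le.1 (ip_le (((δ * ‖v‖ : ℝ) : ℂ) * ν₁) hν)).1
  have e4 : 9 / 10 * ‖v‖ ≤ -ip v ν := by
    rw [Complex.neg_re, Complex.neg_im] at hv
    unfold ip
    linarith
  have e5 := h (((δ * ‖v‖ : ℝ) : ℂ) * ν₁ - v) (by
    rw [ip_sub]
    have := mul_le_mul_of_nonneg_left e2 c0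
    rw [e1] at this e3
    have f1 : c * (δ * ‖v‖) ≤ δ * ‖v‖ := mul_le_of_le_one_left (by positivity) (by linarith)
    nlinarith)
  rw [ip_sub, ip_smul, ip_self h1] at e5
  unfold ip at e5
  linarith

theorem lip3_of_PC1 (h : IsPC1 D) (hw : Wide D) : Lip3 D := by
  refine lip3_of_loc h.1 h.2.1 fun z hz => ?_
  obtain ⟨F, G, hF, hG, F0, G0, hi, r, hr, e⟩ := h.2.2 z hz
  have hi' : ∀ s t : ℝ, s • gr F z + t • gr G z = 0 → s = 0 ∧ t = 0 := fun s t e =>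
    hi s t (ContinuousLinearMap.ext fun v => by
      have e1 := congrArg Complex.re e
      have e2 := congrArg Complex.im e
      simp only [Complex.add_re, Complex.add_im, Complex.smul_re, Complex.smul_im, smul_eq_mul,
        Complex.zero_re, Complex.zero_im] at e1 e2
      simp only [add_apply, smul_apply, eg, smul_eq_mul, zero_apply]
      linear_combination v.re * e1 + v.im * e2)
  have f0 : gr F z ≠ 0 := fun e => one_ne_zero (hi' 1 0 (by simp [e])).1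
  have g0 : gr G z ≠ 0 := fun e => one_ne_zero (hi' 0 1 (by simp [e])).2
  have n0 : ‖gr F z‖⁻¹ ≠ 0 := inv_ne_zero (norm_ne_zero_iff.2 f0)
  have a1 : nu F z + nu G z ≠ 0 := fun e => n0 (hi' _ _ e).1
  rcases e with e | e | e
  · obtain ⟨S, b1, b2, -⟩ := P144Z.Ge5.loc hF f0 (κ := 1 / 2) (by norm_num)
    exact ⟨_, by norm_num, chart_one (by norm_num) (by norm_num) (norm_nu f0) b1
      (((P144Z.Ge5.ev_of_ball e (mem_ball_self hr)).and b2).mono fun w hw => hw.1.trans hw.2)⟩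
  · obtain ⟨μ, m1, m2, m3⟩ := bisect (norm_nu f0) (norm_nu g0) a1
    have s0 := norm_pos_iff.2 a1
    have k0 : 0 < min (‖nu F z + nu G z‖ / 4) (1 / 2) := lt_min (by positivity) (by norm_num)
    have k1 := min_le_left (‖nu F z + nu G z‖ / 4) (1 / 2)
    obtain ⟨S₁, b1, b2, -⟩ := P144Z.Ge5.loc hF f0 k0
    obtain ⟨S₂, c1, c2, -⟩ := P144Z.Ge5.loc hG g0 k0
    obtain ⟨ρ, hρ, e'⟩ := P144Z.Ge5.ball_of_ev (D := D) (E := S₁ ∩ S₂)
      (((P144Z.Ge5.ev_of_ball e (mem_ball_self hr)).and (b2.and c2)).mono fun w hw =>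
        hw.1.trans (and_congr hw.2.1 hw.2.2))
    exact ⟨‖nu F z + nu G z‖ / 4, by positivity, ρ, hρ, _, S₁, S₂, _, _, μ, k0.le,
      (min_le_right _ _).trans (by norm_num), norm_nu f0, norm_nu g0, m1, by linarith,
      by linarith, b1, c1, e'⟩
  · obtain ⟨c, hc, ρ, hρ, ν, hν, hout⟩ := hw z hz
    have c1 : max c 0 < 9 / 10 := max_lt hc (by norm_num)
    have hout' : ∀ v : ℂ, ‖v‖ < ρ → max c 0 * ‖v‖ ≤ v.re * ν.re + v.im * ν.im → z + v ∉ D :=
      fun v h1 h2 => hout v h1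
        ((mul_le_mul_of_nonneg_right (le_max_left _ _) (norm_nonneg _)).trans h2)
    have ev := P144Z.Ge5.ev_of_ball e (mem_ball_self hr)
    have k0 : 0 < (9 / 10 - max c 0) / 2 := by linarith
    obtain ⟨S₁, b1, b2, -⟩ := P144Z.Ge5.loc hF f0 k0
    obtain ⟨S₂, d1, d2, -⟩ := P144Z.Ge5.loc hG g0 k0
    have t1 := cone_turn (le_max_right _ _) c1 hν (norm_nu f0) (fun u hu => grad_le hF F0 f0
      (ev.mono fun w hw h => hw.2 (Or.inl h)) hρ hout' hu) b1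
    have t2 := cone_turn (le_max_right _ _) c1 hν (norm_nu g0) (fun u hu => grad_le hG G0 g0
      (ev.mono fun w hw h => hw.2 (Or.inr h)) hρ hout' hu) d1
    exact ⟨_, by norm_num, chart_one (S := S₁ ∪ S₂) (ν := -ν) (κ := 9 / 10) (by norm_num) le_rfl
      (by rw [norm_neg, hν]) (fun y hy v hv => hy.imp (fun h => t1 y h v hv) fun h => t2 y h v hv)
      ((ev.and (b2.and d2)).mono fun w hw => hw.1.trans (or_congr hw.2.1 hw.2.2))⟩

theorem lip3_of_polygon (h : IsPolygon D) (hw : Wide D) : Lip3 D := lip3_of_PC1 h.isPC1 hw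

theorem lip3_of_C1 (h : IsC1 D) : Lip3 D := lip3_of_lip2 (lip2_of_C1 h)

theorem lip3_of_convex (ho : IsOpen D) (hb : Bornology.IsBounded D) (hc : Convex ℝ D) :
    Lip3 D := lip3_of_lip2 (lip2_of_convex ho hb hc)

theorem lip3_of_isLip {K : ℝ} (hK : K ≤ 2) (h : IsLip K D) : Lip3 D :=
  lip3_of_lip2 (lip2_of_isLip hK h)

theorem lip3_of_tame {α : ℝ} (hα : 0 < α) (h : Tame α D) : Lip3 D :=
  lip3_of_lip2 (lip2_of_tame hα h)

end Vale.Agent.P144Q.U
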