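import Vale.Agent.P144Q.U.Uni
import Vale.Agent.P144Q.U.Lip3
import Vale.Agent.P144Q.BFin
import Vale.Agent.P144Q.BXj
import Vale.Agent.P144Q.R.Uc3
import Vale.Agent.P144Q.R.Bdc
import Vale.Agent.P144Q.C.K34
import Vale.Agent.P144Q.K12
import Vale.Agent.P144Q.A.Xj
import Vale.Agent.P144Q.E.Norm
import Vale.Agent.P144Q.Van
import Vale.Agent.P144Q.L.Lat

/-!
All scaling limits of the free critical model exist in simply connected domains of class `Lip3`.
-/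

namespace Vale.Agent.P144Q.U

open Filter Topology Metric Set Vale.Agent.P144
open Vale.Agent.P144Q.L (Lip3)

theorem dom3 {D : Set ℂ} (hD : Lip3 D) (hs : IsSimplyConnected D) (hsm : D ⊆ ball 0 (1 / 4)) :
    ∃ Ω : Dom, Ω.D = D := by
  obtain ⟨c, hc⟩ := R.map3 hD hs
  refine ⟨⟨D, c.BdC, c.op, hsm, conn c, smul c, zero c, uni D c,
    fun h => (V.van D c.op hsm (L.fat3 hD) h).1, fun h F h1 h2 => ?_⟩, rfl⟩
  have h3 := V.van D c.op hsm (L.fat3 hD) h
  exact R.bdc D c hD.2.1 hc _ _ F h.cpt h.sub h1 h2 h3.1 h3.2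

/-- **Existence of the limits.** -/
theorem all3 {J : ℝ} (hJ : 0 < J) {D : Set ℂ} (h : Lip3 D) (hs : IsSimplyConnected D) :
    AllLim D (crit J D none) := by
  obtain ⟨t, R0, hsm⟩ := exists_small h.2.1
  refine B.allLim_div R0 ?_
  have h' := lip3_div R0 h
  have hs' := sc_div R0 hs
  generalize (fun z => z / (t : ℂ)) '' D = D' at hsm h' hs'
  obtain ⟨Ω, rfl⟩ := dom3 h' hs' hsm
  obtain ⟨Ω', hΩ'⟩ := dom3 (lip3_rc h') (sc_rc hs') (small_rc hsm)
  obtain ⟨c, -⟩ := R.map3 h' hs'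
  exact B.small (G.k12 A.xj) C.k34 (B.ratio A.xj) E.norm hJ Ω Ω' hΩ' (L.lat3 h' c)

end Vale.Agent.P144Q.U
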