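import Vale.Agent.P144Q.U.Sim
import Vale.Agent.P144D.Dom.A
import Vale.Agent.P144D.Dom.Convex
import Vale.Agent.P144U.Stmt
import Mathlib.Analysis.Convex.Contractible

/-!
Domains of the class `Lip2`.
-/

namespace Vale.Agent.P144Q.U

open Filter Topology Metric Set Vale.Agent.P144
open Vale.Agent.P144Z (Cone Tame IsC1 IsLip)

variable {D : Set ℂ}

theorem sq_of_norm {n : ℂ} (h : ‖n‖ = 1) : n.re * n.re + n.im * n.im = 1 := by
  have := Complex.sq_norm n
  rw [h, Complex.normSq_apply] at this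
  linarith

theorem lip2_of_tame {α : ℝ} (hα : 0 < α) (h : Tame α D) : Lip2 D := by
  obtain ⟨h1, h2, h⟩ := h
  have k0 : 0 < min (α / 4) (1 / 2) := lt_min (by positivity) (by norm_num)
  obtain ⟨r, r0, h⟩ := h _ k0
  refine ⟨h1, h2, min (α / 4) (1 / 2), α / 4, r, k0.le,
    (min_le_right _ _).trans (by norm_num), by positivity, r0, fun z => ?_⟩
  obtain ⟨S₁, S₂, ν₁, ν₂, a1, a2, a3, a4, a5, a6⟩ := h z
  set s := ‖ν₁ + ν₂‖ with hs
  have s0 : 0 < s := hα.trans_le a3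
  have b1 := sq_of_norm a1
  have b2 := sq_of_norm a2
  have b3 : s ^ 2 = (ν₁.re + ν₂.re) * (ν₁.re + ν₂.re) + (ν₁.im + ν₂.im) * (ν₁.im + ν₂.im) := by
    rw [hs, Complex.sq_norm, Complex.normSq_apply, Complex.add_re, Complex.add_im]
  have key : ∀ x : ℝ, 2 * x = s ^ 2 → min (α / 4) (1 / 2) + α / 4 ≤ s⁻¹ * x := by
    intro x hx
    have e : s⁻¹ * x = s / 2 := by
      field_simp
      linarith
    rw [e]
    linarith [min_le_left (α / 4) (1 / 2)]
  refine ⟨S₁, S₂, ν₁, ν₂, (s⁻¹ : ℝ) * (ν₁ + ν₂), a1, a2, ?_, ?_, ?_, a4, a5, a6⟩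
  · rw [norm_mul, Complex.norm_real, Real.norm_of_nonneg (inv_pos.2 s0).le, ← hs,
      inv_mul_cancel₀ s0.ne']
  · rw [Complex.re_ofReal_mul, Complex.im_ofReal_mul, mul_assoc, mul_assoc, ← mul_add,
      Complex.add_re, Complex.add_im]
    exact key _ (by nlinarith)
  · rw [Complex.re_ofReal_mul, Complex.im_ofReal_mul, mul_assoc, mul_assoc, ← mul_add,
      Complex.add_re, Complex.add_im]
    exact key _ (by nlinarith)

theorem lip2_of_C1 (h : IsC1 D) : Lip2 D := lip2_of_tame two_pos (P144Z.tame_of_C1 h)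

theorem lip2_of_convex (ho : IsOpen D) (hb : Bornology.IsBounded D) (hc : Convex ℝ D) :
    Lip2 D := by
  obtain ⟨α, hα, h⟩ := P144Z.tame_of_convex ho hb hc
  exact lip2_of_tame hα h

theorem sc_of_convex (hc : Convex ℝ D) (hn : D.Nonempty) : IsSimplyConnected D := by
  have := hc.contractibleSpace hn
  exact (inferInstance : SimplyConnectedSpace D)

/-- From a local single cone condition at the boundary. -/
theorem lip2_of_loc (ho : IsOpen D) (hb : Bornology.IsBounded D)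
    (h : ∀ z ∈ frontier D, ∃ r > (0 : ℝ), ∃ (S : Set ℂ) (ν : ℂ), ‖ν‖ = 1 ∧ Cone S ν (9 / 10) ∧
      ∀ w ∈ ball z r, w ∈ D ↔ w ∈ S) : Lip2 D := by
  have all : ∀ z : ℂ, ∃ r > (0 : ℝ), ∃ (S : Set ℂ) (ν : ℂ), ‖ν‖ = 1 ∧ Cone S ν (9 / 10) ∧
      ∀ w ∈ ball z r, w ∈ D ↔ w ∈ S := by
    intro z
    by_cases hz : z ∈ frontier D
    · exact h z hz
    by_cases h1 : z ∈ closure D
    · obtain ⟨ε, ε0, h2⟩ := Metric.mem_nhds_iff.1
        (mem_interior_iff_mem_nhds.1 (not_not.1 fun o => hz ⟨h1, o⟩))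
      exact ⟨ε, ε0, univ, 1, norm_one, fun _ _ _ _ => trivial,
        fun w hw => ⟨fun _ => trivial, fun _ => h2 hw⟩⟩
    · obtain ⟨ε, ε0, h2⟩ := Metric.mem_nhds_iff.1 (isClosed_closure.isOpen_compl.mem_nhds h1)
      exact ⟨ε, ε0, ∅, 1, norm_one, fun _ h => h.elim,
        fun w hw => ⟨fun o => h2 hw (subset_closure o), fun o => o.elim⟩⟩
  choose ρ hρ S ν h1 h2 h3 using all
  obtain ⟨T, hT⟩ := hb.exists_norm_le
  obtain ⟨δ, δ0, hδ⟩ := lebesgue_number_lemma_of_metric (c := fun z => ball z (ρ z))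
    (isCompact_closedBall (0 : ℂ) (T + 1)) (fun _ => isOpen_ball)
    fun z _ => mem_iUnion.2 ⟨z, mem_ball_self (hρ z)⟩
  refine ⟨ho, hb, 9 / 10, 1 / 10, min δ 1, by norm_num, le_rfl, by norm_num,
    lt_min δ0 one_pos, fun z => ?_⟩
  by_cases hz : z ∈ closedBall (0 : ℂ) (T + 1)
  · obtain ⟨y, hy⟩ := hδ z hz
    have e := sq_of_norm (h1 y)
    refine ⟨S y, S y, ν y, ν y, ν y, h1 y, h1 y, h1 y, by linarith, by linarith, h2 y, h2 y, ?_⟩
    ext w
    rw [inter_self]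
    exact and_congr_left fun hw => h3 y w (hy (ball_subset_ball (min_le_left _ _) hw))
  · refine ⟨∅, ∅, 1, 1, 1, norm_one, norm_one, norm_one, by norm_num, by norm_num,
      fun _ h => h.elim, fun _ h => h.elim, ?_⟩
    rw [empty_inter, empty_inter, eq_empty_iff_forall_notMem]
    rintro w ⟨a1, a2⟩
    refine hz (mem_closedBall_zero_iff.2 ?_)
    have a3 := mem_ball.1 (ball_subset_ball (min_le_right _ _) a2)
    rw [dist_comm, dist_eq_norm] at a3
    linarith [hT w a1, norm_le_norm_add_norm_sub' z w]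

theorem lip2_of_isLip {K : ℝ} (hK : K ≤ 2) (h : IsLip K D) : Lip2 D := by
  refine lip2_of_loc h.1 h.2.1 fun z hz => ?_
  obtain ⟨r, hr, u, hu, g, hg, hD⟩ := h.2.2 z hz
  refine ⟨r, hr, {w | g (u * w).re < (u * w).im}, ⟨u.im, u.re⟩, ?_, fun w hw v hv => ?_, hD⟩
  · rw [← hu, Complex.norm_eq_sqrt_sq_add_sq, Complex.norm_eq_sqrt_sq_add_sq, add_comm]
  · have h1 : ‖v‖ ^ 2 = (u * v).re * (u * v).re + (u * v).im * (u * v).im := by
      rw [← Complex.normSq_apply, ← Complex.sq_norm, norm_mul, hu, one_mul]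
    have h2 := (abs_le.1 (hg ((u * w).re + (u * v).re) (u * w).re)).2
    have h4 : (u * v).im = v.re * u.im + v.im * u.re := by rw [Complex.mul_im]; ring
    rw [add_sub_cancel_left] at h2
    change g (u * w).re < (u * w).im at hw
    change 9 / 10 * ‖v‖ ≤ v.re * u.im + v.im * u.re at hv
    change g (u * (w + v)).re < (u * (w + v)).im
    rw [mul_add, Complex.add_re, Complex.add_im]
    rw [← h4] at hv
    have h5 : 0 ≤ (u * v).im := le_trans (by positivity) hv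
    have h6 : 2 * |(u * v).re| ≤ (u * v).im := by
      refine abs_le_of_sq_le_sq' ?_ h5 |>.2
      have h7 : (9 / 10 * ‖v‖) ^ 2 ≤ (u * v).im ^ 2 := pow_le_pow_left₀ (by positivity) hv 2
      rw [mul_pow, h1] at h7
      rw [mul_pow, sq_abs]
      nlinarith
    have h8 := mul_le_mul_of_nonneg_right hK (abs_nonneg (u * v).re)
    linarith

end Vale.Agent.P144Q.U
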