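import Vale.Agent.P144Q.U.Sim

/-!
The existence of the limits from the blocks.
-/

namespace Vale.Agent.P144Q.U

open Filter Topology Metric Set Vale.Agent.P144

variable {D : Set ℂ} {R : ℝ}

theorem expect_mul (β : ℝ) (H : Config → ℝ) (Λ : Finset Site) (η : Config) (c : ℝ)
    (F : Config → ℝ) : expect β H Λ η (fun σ => c * F σ) = c * expect β H Λ η F := by
  unfold expect
  simp only [mul_assoc]
  rw [← Finset.mul_sum, mul_div_assoc]

theorem fl_div (hR : 0 < R) (a : ℝ) (z : ℂ) : fl (a / R) (z / (R : ℂ)) = fl a z := by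
  unfold fl
  rw [Complex.div_ofReal_re, Complex.div_ofReal_im, div_div_div_cancel_right₀ hR.ne',
    div_div_div_cancel_right₀ hR.ne']

theorem disc_div (hR : 0 < R) (D : Set ℂ) (a : ℝ) :
    disc ((fun z => z / (R : ℂ)) '' D) (a / R) = disc D a := by
  have e : sites ((fun z => z / (R : ℂ)) '' D) (a / R) = sites D a := by
    ext x
    rw [div_image hR]
    have e1 : (R : ℂ) * (⟨a / R * x.1, a / R * x.2⟩ : ℂ) = ⟨a * x.1, a * x.2⟩ := by
      apply Complex.ext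
      · rw [Complex.re_ofReal_mul]
        show R * (a / R * x.1) = a * x.1
        field_simp
      · rw [Complex.im_ofReal_mul]
        show R * (a / R * x.2) = a * x.2
        field_simp
    show (R : ℂ) * (⟨a / R * x.1, a / R * x.2⟩ : ℂ) ∈ D ↔ (⟨a * x.1, a * x.2⟩ : ℂ) ∈ D
    rw [e1]
  unfold disc
  rw [e]

/-- The points divided by `R`. -/
noncomputable def dv (R : ℝ) (p : Pts) : Pts :=
  ⟨p.n, p.m, fun i => p.x i / (R : ℂ), fun k => p.y k / (R : ℂ), p.j⟩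

theorem good_dv (hR : 0 < R) {p : Pts} (h : Good D p) :
    Good ((fun z => z / (R : ℂ)) '' D) (dv R p) := by
  have h0 : (R : ℂ) ≠ 0 := by exact_mod_cast hR.ne'
  refine ⟨h.1, fun i => ⟨_, h.2.1 i, rfl⟩, fun k => ⟨_, h.2.2.1 k, rfl⟩, ?_⟩
  have e : Sum.elim (dv R p).x (dv R p).y = (fun z => z / (R : ℂ)) ∘ Sum.elim p.x p.y := by
    funext s
    cases s <;> rfl
  rw [e]
  exact Function.Injective.comp (fun x y e => (div_left_inj' h0).1 e) h.2.2.2

theorem corr_dv (hR : 0 < R) {a : ℝ} (ha : 0 < a) (β : ℝ) (H : Config → ℝ) (Λ : Finset Site)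
    (η : Config) (p : Pts) : corr a (expect β H Λ η) p =
      (R ^ (-(1 / 8) : ℝ)) ^ p.n * R⁻¹ ^ p.m * corr (a / R) (expect β H Λ η) (dv R p) := by
  unfold corr
  rw [← expect_mul]
  congr 1
  funext σ
  have e1 : a ^ (-(1 / 8) : ℝ) = R ^ (-(1 / 8) : ℝ) * (a / R) ^ (-(1 / 8) : ℝ) := by
    rw [← Real.mul_rpow hR.le (div_pos ha hR).le, mul_div_cancel₀ _ hR.ne']
  have e2 : a⁻¹ = R⁻¹ * (a / R)⁻¹ := by
    field_simp
  show _ = (R ^ (-(1 / 8) : ℝ)) ^ p.n * R⁻¹ ^ p.m *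
    ((∏ i : Fin p.n, (a / R) ^ (-(1 / 8) : ℝ) * sp (σ (fl (a / R) (p.x i / (R : ℂ))))) *
    ∏ k : Fin p.m, (a / R)⁻¹ * (sp (σ (fl (a / R) (p.y k / (R : ℂ)))) *
      sp (σ (fl (a / R) (p.y k / (R : ℂ)) + dir (p.j k))) - expect β H Λ η fun τ =>
        sp (τ (fl (a / R) (p.y k / (R : ℂ)))) *
          sp (τ (fl (a / R) (p.y k / (R : ℂ)) + dir (p.j k)))))
  simp only [fl_div hR]
  rw [e1, e2]
  generalize (a / R) ^ (-(1 / 8) : ℝ) = s
  generalize R ^ (-(1 / 8) : ℝ) = s'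
  generalize (a / R)⁻¹ = t
  generalize R⁻¹ = t'
  simp only [mul_assoc, Finset.prod_mul_distrib, Finset.prod_const, Finset.card_univ,
    Fintype.card_fin]
  ring

theorem allLim_div (hR : 0 < R) {J : ℝ}
    (h : AllLim ((fun z => z / (R : ℂ)) '' D) (crit J ((fun z => z / (R : ℂ)) '' D) none)) :
    AllLim D (crit J D none) := by
  intro p hp
  obtain ⟨c, hc⟩ := h _ (good_dv hR hp)
  have ht : Tendsto (fun a : ℝ => a / R) (𝓝[>] 0) (𝓝[>] 0) := by
    refine tendsto_nhdsWithin_iff.2 ⟨?_, ?_⟩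
    · have : Tendsto (fun a : ℝ => a / R) (𝓝 0) (𝓝 (0 / R)) := tendsto_id.div_const R
      rw [zero_div] at this
      exact this.mono_left nhdsWithin_le_nhds
    · filter_upwards [self_mem_nhdsWithin] with a ha
      exact div_pos ha hR
  refine ⟨(R ^ (-(1 / 8) : ℝ)) ^ p.n * R⁻¹ ^ p.m * c,
    ((Tendsto.comp hc ht).const_mul _).congr' ?_⟩
  filter_upwards [self_mem_nhdsWithin] with a ha
  show _ * corr (a / R) (gibbs J 0 (fun _ => 0) (Kc / J) none
    (disc ((fun z => z / (R : ℂ)) '' D) (a / R))) (dv R p) =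
      corr a (gibbs J 0 (fun _ => 0) (Kc / J) none (disc D a)) p
  rw [disc_div hR]
  exact (corr_dv hR ha _ _ _ _ p).symm

/-- **The result from the blocks.** -/
theorem fin (hD : SDom) (hM : SMap) (hL : SLat) (h12 : SK12) (h34 : SK34) (hR : SRat)
    (hN : SNorm) (hA : SAsm) : SFin := by
  intro J hJ D h hs
  obtain ⟨R, R0, hsm⟩ := exists_small h.2.1
  refine allLim_div R0 ?_
  have h' := lip2_div R0 h
  have hs' := sc_div R0 hs
  generalize (fun z => z / (R : ℂ)) '' D = D' at hsm h' hs'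
  obtain ⟨Ω, rfl⟩ := hD D' h' hs' hsm
  obtain ⟨Ω', hΩ'⟩ := hD _ (lip2_rc h') (sc_rc hs') (small_rc hsm)
  obtain ⟨c, -⟩ := hM _ h' hs'
  have hF := hL _ h' ⟨c⟩
  exact hA J hJ _ _ hF (fun p hp => ⟨(h12 Ω _ hF p hp).1, (h12 Ω _ hF p hp).2,
    (h34 Ω _ hF p hp).1, (h34 Ω _ hF p hp).2⟩) (hN _ _ Ω.op Ω.small hF (hR Ω Ω' hΩ' _ hF))

end Vale.Agent.P144Q.U
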