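import Vale.Agent.P144Q.Basic

/-!
The class `Lip2` and simple connectivity are invariant under scaling and reflection.
-/

namespace Vale.Agent.P144Q.U

open Filter Topology Metric Set Vale.Agent.P144
open Vale.Agent.P144Z (Cone)

variable {D : Set ℂ}

theorem lip2_sim {g o : ℂ → ℂ} {t : ℝ} (ht : 0 < t) (hc : Continuous g)
    (ha : ∀ x y, g (x + y) = g x + g y) (hn : ∀ v, ‖g v‖ = t * ‖v‖) (ho : ∀ v, ‖o v‖ = ‖v‖)
    (hi : ∀ v ν, (g v).re * ν.re + (g v).im * ν.im = t * (v.re * (o ν).re + v.im * (o ν).im))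
    (hj : ∀ μ ν, (o μ).re * (o ν).re + (o μ).im * (o ν).im = μ.re * ν.re + μ.im * ν.im)
    (h : Lip2 D) : Lip2 (g ⁻¹' D) := by
  obtain ⟨h1, h2, κ, γ, r, k0, k1, g0, r0, h⟩ := h
  have cone : ∀ S ν, Cone S ν κ → Cone (g ⁻¹' S) (o ν) κ := by
    intro S ν hS z hz v hv
    show g (z + v) ∈ S
    rw [ha]
    refine hS _ hz _ ?_
    rw [hi, hn]
    nlinarith
  refine ⟨h1.preimage hc, ?_, κ, γ, r / t, k0, k1, g0, div_pos r0 ht, fun z => ?_⟩
  · obtain ⟨T, hT⟩ := h2.exists_norm_le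
    refine isBounded_iff_forall_norm_le.2 ⟨T / t, fun w hw => ?_⟩
    have := hT _ hw
    rw [hn] at this
    rw [le_div_iff₀ ht]
    linarith
  · obtain ⟨S₁, S₂, ν₁, ν₂, μ, a1, a2, a3, a4, a5, a6, a7, a8⟩ := h (g z)
    refine ⟨g ⁻¹' S₁, g ⁻¹' S₂, o ν₁, o ν₂, o μ, by rw [ho, a1], by rw [ho, a2], by rw [ho, a3],
      by rwa [hj], by rwa [hj], cone _ _ a6, cone _ _ a7, ?_⟩
    have e : ball z (r / t) = g ⁻¹' ball (g z) r := by
      ext w
      have e1 : g w - g z = g (w - z) := by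
        have := ha (w - z) z
        rw [sub_add_cancel] at this
        rw [this]; ring
      rw [mem_preimage, mem_ball, mem_ball, dist_eq_norm, dist_eq_norm, e1, hn, lt_div_iff₀ ht,
        mul_comm]
    rw [e, ← preimage_inter, a8, preimage_inter, preimage_inter]

theorem div_image {R : ℝ} (hR : 0 < R) (D : Set ℂ) :
    (fun z => z / (R : ℂ)) '' D = (fun z => (R : ℂ) * z) ⁻¹' D := by
  have h0 : (R : ℂ) ≠ 0 := by exact_mod_cast hR.ne'
  ext w
  constructor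
  · rintro ⟨z, hz, rfl⟩
    show (R : ℂ) * (z / R) ∈ D
    rwa [mul_div_cancel₀ _ h0]
  · intro hw
    exact ⟨_, hw, mul_div_cancel_left₀ _ h0⟩

theorem rc_image (D : Set ℂ) : H436.rc '' D = H436.rc ⁻¹' D := by
  ext w
  constructor
  · rintro ⟨z, hz, rfl⟩
    show H436.rc (H436.rc z) ∈ D
    rwa [H436.rc_rc]
  · intro hw
    exact ⟨_, hw, H436.rc_rc w⟩

theorem rc_norm (v : ℂ) : ‖H436.rc v‖ = ‖v‖ := by
  rw [Complex.norm_eq_sqrt_sq_add_sq, Complex.norm_eq_sqrt_sq_add_sq]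
  simp [H436.rc]

theorem rc_cont : Continuous H436.rc := by
  have : H436.rc = fun z => -(starRingEnd ℂ) z := by
    funext z
    apply Complex.ext <;> simp [H436.rc]
  rw [this]
  exact Complex.continuous_conj.neg

theorem lip2_mul {R : ℝ} (hR : 0 < R) (h : Lip2 D) : Lip2 ((fun z => (R : ℂ) * z) ⁻¹' D) := by
  refine lip2_sim (o := fun z => z) hR (by fun_prop) (fun x y => mul_add _ x y) (fun v => ?_)
    (fun _ => rfl) (fun v ν => ?_) (fun _ _ => rfl) h
  · rw [norm_mul, Complex.norm_real, Real.norm_of_nonneg hR.le]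
  · rw [Complex.re_ofReal_mul, Complex.im_ofReal_mul]; ring

theorem lip2_div {R : ℝ} (hR : 0 < R) (h : Lip2 D) : Lip2 ((fun z => z / (R : ℂ)) '' D) := by
  rw [div_image hR]
  exact lip2_mul hR h

theorem lip2_rc (h : Lip2 D) : Lip2 (H436.rc '' D) := by
  rw [rc_image]
  refine lip2_sim (o := H436.rc) one_pos rc_cont (fun x y => ?_)
    (fun v => by rw [rc_norm, one_mul]) rc_norm (fun v ν => ?_) (fun μ ν => ?_) h
  · apply Complex.ext <;> simp [H436.rc, add_comm]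
  · simp [H436.rc]
  · simp [H436.rc]

theorem sc_div {R : ℝ} (hR : 0 < R) (h : IsSimplyConnected D) :
    IsSimplyConnected ((fun z => z / (R : ℂ)) '' D) := by
  have h0 : (R : ℂ)⁻¹ ≠ 0 := inv_ne_zero (by exact_mod_cast hR.ne')
  have e : (fun z => z / (R : ℂ)) = Homeomorph.mulRight₀ _ h0 := by
    funext z
    exact div_eq_mul_inv z R
  rw [e]
  exact (Homeomorph.isSimplyConnected_image _).2 h

theorem sc_mul {R : ℝ} (hR : 0 < R) (h : IsSimplyConnected D) :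
    IsSimplyConnected ((fun z => (R : ℂ) * z) ⁻¹' D) := by
  rw [← div_image hR]
  exact sc_div hR h

theorem sc_rc (h : IsSimplyConnected D) : IsSimplyConnected (H436.rc '' D) :=
  (Homeomorph.isSimplyConnected_image
    (⟨⟨H436.rc, H436.rc, H436.rc_rc, H436.rc_rc⟩, rc_cont, rc_cont⟩ : ℂ ≃ₜ ℂ)).2 h

theorem small_rc {s : ℝ} (h : D ⊆ ball 0 s) : H436.rc '' D ⊆ ball 0 s := by
  rintro _ ⟨z, hz, rfl⟩
  rw [mem_ball_zero_iff, rc_norm]
  exact mem_ball_zero_iff.1 (h hz)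

theorem exists_small (h : Bornology.IsBounded D) :
    ∃ R > (0 : ℝ), (fun z => z / (R : ℂ)) '' D ⊆ ball 0 (1 / 4) := by
  obtain ⟨T, T0, hT⟩ := h.exists_pos_norm_le
  refine ⟨5 * T, by positivity, ?_⟩
  rintro _ ⟨z, hz, rfl⟩
  rw [mem_ball_zero_iff, norm_div, Complex.norm_real, Real.norm_of_nonneg (by positivity),
    div_lt_iff₀ (by positivity)]
  linarith [hT z hz]

end Vale.Agent.P144Q.U
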